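import Vale.Agent.P002C97.Defs

/-!
# P002: the class, its closures and the fibre of the characteristic polynomial are admissible
-/

open Matrix Set

namespace Vale.Agent.P002C

variable {r : ℕ}

theorem cp_conj {A B : SpecialLinearGroup (Fin r) ℂ} (h : IsConj A B) :
    B.1.charpoly = A.1.charpoly := by
  obtain ⟨g, rfl⟩ := isConj_iff.1 h
  have h1 : (g⁻¹).1 * g.1 = 1 := congrArg Subtype.val (inv_mul_cancel g)
  change (g.1 * A.1 * (g⁻¹).1).charpoly = _
  rw [Matrix.charpoly_mul_comm, ← Matrix.mul_assoc, h1, Matrix.one_mul]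

theorem cp_iff (A C : Matrix (Fin r) (Fin r) ℂ) : A.charpoly = C.charpoly ↔
    ∀ z : ℂ, (Matrix.scalar (Fin r) z - A).det = C.charpoly.eval z := by
  refine ⟨fun h z => by rw [← h, Matrix.eval_charpoly], fun h => Polynomial.funext fun z => ?_⟩
  rw [← h, Matrix.eval_charpoly]

theorem isClosed_fibre (C : SpecialLinearGroup (Fin r) ℂ) :
    IsClosed {A : SpecialLinearGroup (Fin r) ℂ | A.1.charpoly = C.1.charpoly} := by
  simp only [cp_iff, ofPred_forall]
  refine isClosed_iInter fun z => isClosed_eq ?_ continuous_const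
  exact (continuous_const.sub continuous_subtype_val).matrix_det

theorem adm_class (C : SpecialLinearGroup (Fin r) ℂ) : Adm C {A | IsConj C A} :=
  ⟨fun _ h => cp_conj h, fun _ h _ h' => IsConj.trans h h'⟩

theorem adm_fibre (C : SpecialLinearGroup (Fin r) ℂ) :
    Adm C {A | A.1.charpoly = C.1.charpoly} :=
  ⟨fun _ h => h, fun _ h _ h' => (cp_conj h').trans h⟩

theorem Adm.closure {C : SpecialLinearGroup (Fin r) ℂ} {T : Set (SpecialLinearGroup (Fin r) ℂ)}
    (h : Adm C T) : Adm C (closure T) := by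
  refine ⟨fun A hA => closure_minimal (fun X hX => h.1 X hX)
    (isClosed_fibre C) hA, fun A hA B hB => ?_⟩
  obtain ⟨g, rfl⟩ := isConj_iff.1 hB
  have hm : MapsTo (fun X => g * X * g⁻¹) T T := fun X hX =>
    h.2 X hX _ (isConj_iff.2 ⟨g, rfl⟩)
  exact hm.closure (by fun_prop) hA

theorem isClosed_zarCl (C : SpecialLinearGroup (Fin r) ℂ) : IsClosed (zarCl C) := by
  simp only [zarCl, ofPred_forall]
  refine isClosed_iInter fun f => isClosed_iInter fun _ => isClosed_eq ?_ continuous_const
  refine (MvPolynomial.continuous_eval f).comp (continuous_pi fun p => ?_)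
  exact (continuous_apply p.2).comp ((continuous_apply p.1).comp continuous_subtype_val)

/-- the generic matrix -/
noncomputable def gen (r : ℕ) : Matrix (Fin r) (Fin r) (MvPolynomial (Fin r × Fin r) ℂ) :=
  Matrix.of fun i j => MvPolynomial.X (i, j)

theorem map_gen (A : Matrix (Fin r) (Fin r) ℂ) :
    (MvPolynomial.eval fun p : Fin r × Fin r => A p.1 p.2).mapMatrix (gen r) = A :=
  Matrix.ext fun i j => by simp [gen]

theorem map_C (A M : Matrix (Fin r) (Fin r) ℂ) :
    (MvPolynomial.eval fun p : Fin r × Fin r => A p.1 p.2).mapMatrix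
      (M.map MvPolynomial.C) = M :=
  Matrix.ext fun i j => by simp

/-- the generic conjugate -/
noncomputable def genC (P Q : Matrix (Fin r) (Fin r) ℂ) :
    Matrix (Fin r) (Fin r) (MvPolynomial (Fin r × Fin r) ℂ) :=
  P.map MvPolynomial.C * gen r * Q.map MvPolynomial.C

theorem map_genC (P Q A : Matrix (Fin r) (Fin r) ℂ) :
    (MvPolynomial.eval fun p : Fin r × Fin r => A p.1 p.2).mapMatrix (genC P Q) = P * A * Q := by
  rw [genC, map_mul, map_mul, map_C, map_C, map_gen]

theorem eval_conj (P Q A : Matrix (Fin r) (Fin r) ℂ) (f : MvPolynomial (Fin r × Fin r) ℂ) :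
    MvPolynomial.eval (fun p : Fin r × Fin r => A p.1 p.2)
      (MvPolynomial.eval₂Hom MvPolynomial.C (fun p : Fin r × Fin r => genC P Q p.1 p.2) f) =
      MvPolynomial.eval (fun p : Fin r × Fin r => (P * A * Q) p.1 p.2) f := by
  refine DFunLike.congr_fun (MvPolynomial.ringHom_ext (f := (MvPolynomial.eval _).comp
    (MvPolynomial.eval₂Hom _ _)) (g := MvPolynomial.eval _) (fun a => by simp) fun p => ?_) f
  rw [RingHom.comp_apply, MvPolynomial.eval₂Hom_X', MvPolynomial.eval_X, ← map_genC P Q A]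
  rfl

theorem adm_zarCl (C : SpecialLinearGroup (Fin r) ℂ) : Adm C (zarCl C) := by
  refine ⟨fun A hA => (cp_iff _ _).2 fun z => ?_, fun A hA B hB f hf => ?_⟩
  · have key : ∀ M : Matrix (Fin r) (Fin r) ℂ,
        MvPolynomial.eval (fun p : Fin r × Fin r => M p.1 p.2)
          (((Matrix.scalar (Fin r) z).map MvPolynomial.C - gen r).det -
            MvPolynomial.C (C.1.charpoly.eval z)) =
          (Matrix.scalar (Fin r) z - M).det - C.1.charpoly.eval z := fun M => by
      rw [map_sub, RingHom.map_det, map_sub, map_C, map_gen, MvPolynomial.eval_C]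
    have := hA _ fun B hB => (key B.1).trans (sub_eq_zero.2 ((cp_iff _ _).1 (cp_conj hB) z))
    exact sub_eq_zero.1 ((key A.1).symm.trans this)
  · obtain ⟨g, rfl⟩ := isConj_iff.1 hB
    refine (eval_conj g.1 (g⁻¹).1 A.1 f).symm.trans (hA _ fun X hX => ?_)
    exact (eval_conj g.1 (g⁻¹).1 X.1 f).trans
      (hf (g * X * g⁻¹) (hX.trans (isConj_iff.2 ⟨g, rfl⟩)))

end Vale.Agent.P002C
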