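import Vale.Agent.P002A30.Defs

/-!
# P002: boundary conditions given by unions of conjugacy classes
-/

open Matrix

namespace Vale.Agent.P002C

open Vale.Agent.P002A

variable {r s : ℕ}

/-- `T` is stable under conjugation and its elements have the characteristic polynomial of `C`. -/
def Adm (C : SpecialLinearGroup (Fin r) ℂ) (T : Set (SpecialLinearGroup (Fin r) ℂ)) : Prop :=
  (∀ A ∈ T, A.1.charpoly = C.1.charpoly) ∧ ∀ A ∈ T, ∀ B, IsConj A B → B ∈ T

/-- The Zariski closure of the conjugacy class of `C` in `SL_r(ℂ)`. -/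
def zarCl (C : SpecialLinearGroup (Fin r) ℂ) : Set (SpecialLinearGroup (Fin r) ℂ) :=
  {A | ∀ f : MvPolynomial (Fin r × Fin r) ℂ,
    (∀ B, IsConj C B → MvPolynomial.eval (fun p => B.1 p.1 p.2) f = 0) →
      MvPolynomial.eval (fun p => A.1 p.1 p.2) f = 0}

variable {G ι : Type} [Group G] {R : Set (FreeGroup ι)} (θ : PresentedGroup R ≃* G)
  (γ : Fin s → G) (T : Fin s → Set (SpecialLinearGroup (Fin r) ℂ))

/-- The semisimple `ρ` with `ρ (γ j) ∈ T j`, in `Rep_r(ℂ)`. -/
def repIn : Set (CPt (ORep r R)) :=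
  {x | ∃ ρ, IsPointOf θ ρ x ∧ (toRep ρ).IsSemisimpleRepresentation ∧ ∀ j, ρ (γ j) ∈ T j}

/-- The classes of these representations, in `M_r(ℂ)`. -/
def locusIn : Set (CPt (OM r R)) :=
  (fun x => RingHom.comp x (OM r R).subtype) '' repIn θ γ T

/-- The image in `M_r(ℂ)` of all `ρ`, semisimple or not, with `ρ (γ j) ∈ T j`. -/
def imageIn : Set (CPt (OM r R)) :=
  (fun x : ORep r R →+* ℂ => RingHom.comp x (OM r R).subtype) ''
    {x | ∃ ρ, IsPointOf θ ρ x ∧ ∀ j, ρ (γ j) ∈ T j}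

end Vale.Agent.P002C
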