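import Vale.Agent.P002C97.Ss
import Vale.Agent.P002.Bd3.B1

/-!
# P002: finitely many classes have a given characteristic polynomial; one field for all of them
-/

open Matrix Set NumberField

namespace Vale.Agent.P002C

open Vale.Agent.P002A

variable {r : ℕ}

theorem fin_classes (C : SpecialLinearGroup (Fin r) ℂ) :
    ∃ S : Set (SpecialLinearGroup (Fin r) ℂ), S.Finite ∧
      (∀ B ∈ S, B.1.charpoly = C.1.charpoly) ∧
      ∀ A : SpecialLinearGroup (Fin r) ℂ, A.1.charpoly = C.1.charpoly → ∃ B ∈ S, IsConj B A := by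
  have h1 : {d : Fin r → ℂ | ∀ i, d i ∈ {z | C.1.charpoly.IsRoot z}}.Finite :=
    Set.Finite.pi' fun _ => Polynomial.finite_setOfPred_isRoot (Matrix.charpoly_monic C.1).ne_zero
  have h2 : {ν : Fin r → Fin r → ℤ |
      ∀ i, ν i ∈ {v : Fin r → ℤ | ∀ j, v j ∈ ({0, 1} : Set ℤ)}}.Finite :=
    Set.Finite.pi' fun _ => Set.Finite.pi' fun _ => Set.toFinite _
  have h3 := (h1.prod h2).image fun q : (Fin r → ℂ) × (Fin r → Fin r → ℤ) =>
    (diagonal q.1 + (1 : ℂ) • (Matrix.of q.2).map (Int.cast : ℤ → ℂ) : Matrix (Fin r) (Fin r) ℂ)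
  obtain ⟨J, hJ, hJm⟩ : ∃ J : Set (Matrix (Fin r) (Fin r) ℂ), J.Finite ∧
      ∀ (d : Fin r → ℂ) (ν : Matrix (Fin r) (Fin r) ℤ), (∀ i, C.1.charpoly.IsRoot (d i)) →
        (∀ i j, ν i j = 0 ∨ ν i j = 1) →
          diagonal d + (1 : ℂ) • ν.map (Int.cast : ℤ → ℂ) ∈ J :=
    ⟨_, h3, fun d ν a b => ⟨(d, fun i j => ν i j), ⟨a, b⟩, rfl⟩⟩
  clear h1 h2 h3
  have h4 : {B : SpecialLinearGroup (Fin r) ℂ | B.1 ∈ J ∧ B.1.charpoly = C.1.charpoly}.Finite :=
    (hJ.preimage (f := fun B : SpecialLinearGroup (Fin r) ℂ => B.1)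
      (fun _ _ _ _ h => Subtype.ext h)).subset fun B hB => hB.1
  refine ⟨_, h4, fun B hB => hB.2, fun A hA => ?_⟩
  obtain ⟨d, ν, hν, -, hd, hP⟩ := Vale.Agent.P002.exists_jordan A.1
  obtain ⟨P, hP⟩ := hP 1 one_ne_zero
  have hPP : (P : Matrix (Fin r) (Fin r) ℂ) *
      ((P⁻¹ : (Matrix (Fin r) (Fin r) ℂ)ˣ) : Matrix (Fin r) (Fin r) ℂ) = 1 := by
    rw [← Units.val_mul, mul_inv_cancel, Units.val_one]
  have hdet : (diagonal d + (1 : ℂ) • ν.map (Int.cast : ℤ → ℂ)).det = 1 := by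
    have e1 := congrArg det hP
    have e2 := congrArg det hPP
    rw [det_mul, det_one] at e2
    rw [A.2, det_mul, det_mul, mul_right_comm, e2, one_mul] at e1
    exact e1.symm
  obtain ⟨g, hg⟩ := Vale.Agent.P002S14.exists_sl hPP
  let B : SpecialLinearGroup (Fin r) ℂ := ⟨_, hdet⟩
  have hc : IsConj B A := isConj_iff.2 ⟨g, Subtype.ext ((hg B).trans hP.symm)⟩
  refine ⟨B, ⟨hJm d ν (fun i => ?_) hν, (cp_conj hc).symm.trans hA⟩, hc⟩
  rw [← hA, hd, Polynomial.IsRoot.def, Polynomial.eval_prod]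
  exact Finset.prod_eq_zero (Finset.mem_univ i) (by simp)

theorem intPts_mono {B : Type} [CommRing B] {L L' : IntermediateField ℚ ℂ} (h : L ≤ L') :
    intPts B L ⊆ intPts B L' := by
  rintro _ ⟨y, rfl⟩
  exact ⟨(RingOfIntegers.mapRingHom (IntermediateField.inclusion h).toRingHom).comp y, rfl⟩

theorem qu_of_cp {B C : SpecialLinearGroup (Fin r) ℂ} (h : B.1.charpoly = C.1.charpoly)
    (hC : IsQuasiUnipotent C) : IsQuasiUnipotent B := fun z hz =>
  hC z (mem_spectrum_iff_isRoot_charpoly.2 (h ▸ mem_spectrum_iff_isRoot_charpoly.1 hz))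

variable {G ι : Type} [Group G] [Finite ι] {R : Set (FreeGroup ι)} (θ : PresentedGroup R ≃* G)

theorem one_field {s : ℕ} (γ : Fin s → G)
    (key : ∀ C : Fin s → SpecialLinearGroup (Fin r) ℂ, (∀ j, IsQuasiUnipotent (C j)) →
      ∃ L : IntermediateField ℚ ℂ, FiniteDimensional ℚ L ∧
        DenseIn (intPts (ORep r R) L) (repLocus θ γ C))
    (C : Fin s → SpecialLinearGroup (Fin r) ℂ) (hC : ∀ j, IsQuasiUnipotent (C j)) :
    ∃ L : IntermediateField ℚ ℂ, FiniteDimensional ℚ L ∧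
      ∀ T : Fin s → Set (SpecialLinearGroup (Fin r) ℂ), (∀ j, Adm (C j) (T j)) →
        DenseIn (intPts (OM r R) L) (locusIn θ γ T) ∧
        DenseIn (intPts (ORep r R) L) (repIn θ γ T) := by
  choose S hS hcp hall using fun j => fin_classes (C j)
  have : ∀ j, Finite (S j) := fun j => (hS j).to_subtype
  choose L hL hd using fun B : ∀ j, S j =>
    key (fun j => (B j).1) fun j => qu_of_cp (hcp j _ (B j).2) (hC j)
  refine ⟨⨆ B, L B, IntermediateField.finiteDimensional_iSup_of_finite, fun T hT => ?_⟩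
  have h : repIn θ γ T ⊆ closure (intPts (ORep r R) (⨆ B, L B) ∩ repIn θ γ T) := by
    rintro x ⟨ρ, hx, hs, hρ⟩
    choose B hB hc using fun j => hall j (ρ (γ j)) ((hT j).1 _ (hρ j))
    have h1 := Subtype.dense_iff.1 (hd fun j => ⟨B j, hB j⟩).1
    rw [Subtype.image_preimage_coe] at h1
    refine closure_mono ?_ (h1 ⟨ρ, hx, hs, hc⟩)
    rintro y ⟨⟨σ, hy, hσ, hj⟩, hi⟩
    exact ⟨intPts_mono (le_iSup L _) hi, σ, hy, hσ,
      fun j => (hT j).2 _ (hρ j) _ ((hc j).symm.trans (hj j))⟩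
  exact ⟨denseIn_image (OM r R).subtype h (mapsTo_image _ _) subset_closure,
    denseIn_image (RingHom.id _) h (fun _ hx => hx) fun x hx => subset_closure ⟨x, hx, rfl⟩⟩

end Vale.Agent.P002C
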