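import Vale.Agent.P002C97.Adm
import Vale.Agent.P002A30.Alg
import Vale.Agent.P002S14.Core

/-!
# P002: the semisimplification stays in closed conjugation-stable sets
-/

open Matrix Set

namespace Vale.Agent.P002C

open Vale.Agent.P002S14

variable {G : Type} [Group G] {r : ℕ}

/-- closed conjugation-stable conditions are kept -/
def Keep (σ σ' : G →* SpecialLinearGroup (Fin r) ℂ) : Prop :=
  ∀ (g : G) (T : Set (SpecialLinearGroup (Fin r) ℂ)), IsClosed T →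
    (∀ A ∈ T, ∀ B, IsConj A B → B ∈ T) → σ g ∈ T → σ' g ∈ T

theorem keep_fam {π : Matrix (Fin r) (Fin r) ℂ} (σ : G →* SpecialLinearGroup (Fin r) ℂ)
    (hπ : π * π = π) (ha : ∀ g, π * ((σ g).1 * π) = (σ g).1 * π) (t : ℂ) :
    Keep σ (fam σ hπ ha t) := by
  intro g T hT hc hg
  have hcont : Continuous fun t : ℂ => fam σ hπ ha t g :=
    continuous_induced_rng.2 (continuous_F (π := π) (a := (σ g).1))
  have h1 : ({0}ᶜ : Set ℂ) ⊆ (fun t : ℂ => fam σ hπ ha t g) ⁻¹' T := fun t ht => by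
    obtain ⟨A, hA⟩ := exists_sl (pq hπ ht)
    refine hc _ hg _ (isConj_iff.2 ⟨A, Subtype.ext ?_⟩)
    rw [hA]
    exact (F_conj (ha g) ht).symm
  exact closure_minimal h1 (hT.preimage hcont) (dense_compl_singleton (0 : ℂ) t)

theorem step2 (σ : G →* SpecialLinearGroup (Fin r) ℂ) (h : Soc (fun g => (σ g).1) ≠ ⊤) :
    ∃ σ', Rel σ σ' ∧ Keep σ σ' ∧ Soc (fun g => (σ g).1) < Soc (fun g => (σ' g).1) := by
  set S := Soc (fun g => (σ g).1) with hS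
  obtain ⟨K, hK⟩ := Submodule.exists_isCompl S
  have hK0 : K ≠ ⊥ := fun e => h (by have := hK.sup_eq_top; rwa [e, sup_bot_eq] at this)
  let π := LinearMap.toMatrix' (S.projection K hK)
  have hv : ∀ v, π *ᵥ v = S.projection K hK v := fun v => by
    rw [← Matrix.toLin'_apply, Matrix.toLin'_toMatrix']
  have p1 : ∀ v, π *ᵥ v ∈ S := fun v => by rw [hv]; exact Submodule.projection_apply_mem hK v
  have p2 : ∀ v ∈ S, π *ᵥ v = v := fun v m => by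
    rw [hv]; exact Submodule.projection_apply_left hK ⟨v, m⟩
  have p3 : ∀ v ∈ K, π *ᵥ v = 0 := fun v m => by
    rw [hv]; exact Submodule.projection_apply_right hK ⟨v, m⟩
  have p4 : ∀ v, v - π *ᵥ v ∈ K := fun v => by rw [hv]; exact Submodule.sub_projection_mem hK v
  have hi : ∀ g, ∀ v ∈ S, (σ g).1 *ᵥ v ∈ S := inv_soc (ρ := fun g => (σ g).1)
  have hπ : π * π = π := ext_iff_mulVec.2 fun v => by rw [← mulVec_mulVec, p2 _ (p1 v)]
  have ha : ∀ g, π * ((σ g).1 * π) = (σ g).1 * π := fun g => ext_iff_mulVec.2 fun v => by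
    rw [← mulVec_mulVec, ← mulVec_mulVec, p2 _ (hi g _ (p1 v))]
  have hF : ∀ g v, (fam σ hπ ha 0 g).1 *ᵥ v =
      (σ g).1 *ᵥ v - (π *ᵥ ((σ g).1 *ᵥ v) - (σ g).1 *ᵥ (π *ᵥ v)) := fun g v => by
    change F π 0 (σ g).1 *ᵥ v = _
    simp only [F, sub_zero, one_smul, sub_mulVec, mulVec_mulVec]
  refine ⟨fam σ hπ ha 0, rel_fam σ hπ ha 0, keep_fam σ hπ ha 0, lt_of_le_of_ne ?_ fun e => ?_⟩
  · refine sSup_le fun U hU => le_sSup (irr_congr (W := S) (fun g v m => ?_) (le_sSup hU) hU)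
    rw [hF, p2 v m, p2 _ (hi g v m), sub_self, sub_zero]
  · obtain ⟨U, hU, hI⟩ := exists_irr (ρ := fun g => (fam σ hπ ha 0 g).1) (W := K)
      (fun g v m => by rw [hF, p3 v m, mulVec_zero, sub_zero]; exact p4 _) hK0
    have : U ≤ S := e ▸ (le_sSup hI : U ≤ Soc _)
    exact hI.2.1 (le_bot_iff.1 (hK.disjoint this hU))

theorem exists_ss2 (ρ : G →* SpecialLinearGroup (Fin r) ℂ) :
    ∃ ρ' : G →* SpecialLinearGroup (Fin r) ℂ,
      (∀ W, Inv (fun g => (ρ' g).1) W → ∃ W', Inv (fun g => (ρ' g).1) W' ∧ IsCompl W W') ∧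
        Rel ρ ρ' ∧ Keep ρ ρ' := by
  obtain ⟨_, ⟨σ, hσ, hk, rfl⟩, hm⟩ := (wellFounded_gt (α := Submodule ℂ (Fin r → ℂ))).has_min
    {S | ∃ σ, Rel ρ σ ∧ Keep ρ σ ∧ Soc (fun g => (σ g).1) = S}
    ⟨_, ρ, fun _ _ _ => rfl, fun _ _ _ _ h => h, rfl⟩
  refine ⟨σ, fun W hW => compl_of_soc ?_ hW, hσ, hk⟩
  by_contra hc
  obtain ⟨σ', h1, h3, h2⟩ := step2 σ hc
  exact hm _ ⟨σ', fun φ a b => (h1 φ a b).trans (hσ φ a b),
    fun g T a b c => h3 g T a b (hk g T a b c), rfl⟩ h2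

open Vale.Agent.P002A Vale.Agent.P002R.Orb

variable {ι : Type} {R : Set (FreeGroup ι)} (θ : PresentedGroup R ≃* G)

theorem res_eq_of_rel {ρ ρ' : G →* SpecialLinearGroup (Fin r) ℂ} (h2 : Rel ρ ρ')
    {x y : ORep r R →+* ℂ} (h : IsPointOf θ ρ x) (hy : IsPointOf θ ρ' y) :
    RingHom.comp y (OM r R).subtype = RingHom.comp x (OM r R).subtype := by
  refine RingHom.ext fun f => ?_
  obtain ⟨F, hF⟩ := cls_surj f.1
  let φ : (G → Matrix (Fin r) (Fin r) ℂ) → ℂ := fun m => MvPolynomial.eval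
    (fun p : ι × Fin r × Fin r => m (θ (PresentedGroup.of p.1)) p.2.1 p.2.2)
    (MvPolynomial.map (algebraMap ℤ ℂ) F)
  have hφ : ∀ σ z, IsPointOf θ σ z → φ (fun g => (σ g).1) = z f := fun σ z hz => by
    have : gens z = fun p => σ (θ (PresentedGroup.of p)) := funext hz
    rw [← hF, apply_cls, this, value]
    exact MvPolynomial.eval_map _ _ _
  have hc : Continuous φ := (MvPolynomial.continuous_eval _).comp (by fun_prop)
  refine (hφ _ _ hy).symm.trans ((h2 φ hc fun σ P => ?_).trans (hφ _ _ h))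
  obtain ⟨z, hz⟩ := exists_of_hom θ σ
  obtain ⟨z', hz'⟩ := exists_of_hom θ ((MulAut.conj P).toMonoidHom.comp σ)
  exact (hφ _ _ hz').trans ((conj_eq P (fun p => by rw [hz' p, hz p]; rfl) f).symm.trans
    (hφ _ _ hz).symm)

theorem imageIn_eq {s : ℕ} (γ : Fin s → G) (T : Fin s → Set (SpecialLinearGroup (Fin r) ℂ))
    (hT : ∀ j, IsClosed (T j)) (hc : ∀ j, ∀ A ∈ T j, ∀ B, IsConj A B → B ∈ T j) :
    imageIn θ γ T = locusIn θ γ T := by
  refine Subset.antisymm ?_ ?_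
  · rintro _ ⟨x, ⟨ρ, h, hρ⟩, rfl⟩
    obtain ⟨ρ', h1, h2, h3⟩ := exists_ss2 ρ
    obtain ⟨y, hy⟩ := exists_of_hom θ ρ'
    exact ⟨y, ⟨ρ', hy, (ss_iff ρ').2 h1, fun j => h3 _ _ (hT j) (hc j) (hρ j)⟩,
      res_eq_of_rel θ h2 h hy⟩
  · rintro _ ⟨x, ⟨ρ, h, -, hρ⟩, rfl⟩
    exact ⟨x, ⟨ρ, h, hρ⟩, rfl⟩

end Vale.Agent.P002C
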